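import Mathlib

/-!
# S0453 (helper68): class averaging operators and the abstract three-body reduction

`fcls Ω k x` is the class of `x` in `Ω` for the equivalence "same key `k`", `Qk Ω k f` the
class average of `f`.  `threeBody_abstract` is the reduction (2.1)–(2.3) of
`notes/s0453/PROOF.md`: if three keys `k 0, k 1, k 2` refine a key `kT` and on every `kT`-class
the inequality (L3) holds, then `⟨f, A f⟩ ≤ ⟨A f, A f⟩` for `A = ∑ i, (1 - Q_i)`.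
-/

set_option autoImplicit false

namespace Crest.Agent.Helper68.SW3

open Finset

variable {β : Type*} {κ : Type*} [DecidableEq κ]

/-- The class of `x` in `Ω` for the relation "same key". -/
def fcls (Ω : Finset β) (k : β → κ) (x : β) : Finset β := Ω.filter (fun y => k y = k x)

/-- Class average. -/
noncomputable def Qk (Ω : Finset β) (k : β → κ) (f : β → ℝ) (x : β) : ℝ :=
  (∑ y ∈ fcls Ω k x, f y) / ((fcls Ω k x).card : ℝ)

lemma mem_fcls {Ω : Finset β} {k : β → κ} {x y : β} : y ∈ fcls Ω k x ↔ y ∈ Ω ∧ k y = k x := by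
  unfold fcls; rw [Finset.mem_filter]

lemma self_mem_fcls {Ω : Finset β} {k : β → κ} {x : β} (hx : x ∈ Ω) : x ∈ fcls Ω k x :=
  mem_fcls.2 ⟨hx, rfl⟩

lemma fcls_congr {Ω : Finset β} {k : β → κ} {x y : β} (h : k x = k y) :
    fcls Ω k x = fcls Ω k y := by
  unfold fcls; rw [h]

lemma card_fcls_pos {Ω : Finset β} {k : β → κ} {x : β} (hx : x ∈ Ω) :
    (0 : ℝ) < ((fcls Ω k x).card : ℝ) := by
  exact_mod_cast Finset.card_pos.2 ⟨x, self_mem_fcls hx⟩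

lemma Qk_congr {Ω : Finset β} {k : β → κ} (f : β → ℝ) {x y : β} (h : k x = k y) :
    Qk Ω k f x = Qk Ω k f y := by
  unfold Qk; rw [fcls_congr h]

lemma Qk_sub_const {Ω : Finset β} {k : β → κ} (f : β → ℝ) (m : ℝ) {x : β} (hx : x ∈ Ω) :
    Qk Ω k (fun y => f y - m) x = Qk Ω k f x - m := by
  unfold Qk
  have hpos := card_fcls_pos (k := k) hx
  rw [Finset.sum_sub_distrib, Finset.sum_const, nsmul_eq_mul]
  field_simp

/-- Symmetry of the class average on a union of classes. -/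
lemma sum_Qk_mul {Ω F : Finset β} {k : β → κ} (hF : F ⊆ Ω)
    (hcl : ∀ x ∈ F, ∀ y ∈ Ω, k y = k x → y ∈ F) (f g : β → ℝ) :
    ∑ x ∈ F, Qk Ω k f x * g x = ∑ x ∈ F, f x * Qk Ω k g x := by
  have hcls : ∀ x ∈ F, fcls Ω k x = F.filter (fun y => k y = k x) := by
    intro x hx
    ext y
    rw [mem_fcls, Finset.mem_filter]
    constructor
    · rintro ⟨hy, hk⟩; exact ⟨hcl x hx y hy hk, hk⟩
    · rintro ⟨hy, hk⟩; exact ⟨hF hy, hk⟩
  have e1 : ∑ x ∈ F, Qk Ω k f x * g x =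
      ∑ x ∈ F, ∑ y ∈ F, if k y = k x then f y * g x / ((fcls Ω k x).card : ℝ) else 0 := by
    refine Finset.sum_congr rfl fun x hx => ?_
    unfold Qk
    rw [← Finset.sum_filter, ← hcls x hx, div_mul_eq_mul_div, Finset.sum_mul, Finset.sum_div]
  have e2 : ∑ x ∈ F, f x * Qk Ω k g x =
      ∑ x ∈ F, ∑ y ∈ F, if k y = k x then f x * g y / ((fcls Ω k x).card : ℝ) else 0 := by
    refine Finset.sum_congr rfl fun x hx => ?_
    unfold Qk
    rw [← Finset.sum_filter, ← hcls x hx, mul_div_assoc', Finset.mul_sum, Finset.sum_div]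
  rw [e1, e2, Finset.sum_comm]
  refine Finset.sum_congr rfl fun x _ => Finset.sum_congr rfl fun y _ => ?_
  by_cases h : k y = k x
  · rw [if_pos h, if_pos h.symm, fcls_congr h]
  · rw [if_neg h, if_neg (fun h' => h h'.symm)]

lemma Qk_const {Ω : Finset β} {k : β → κ} (m : ℝ) {x : β} (hx : x ∈ Ω) :
    Qk Ω k (fun _ => m) x = m := by
  unfold Qk
  have hpos := card_fcls_pos (k := k) hx
  rw [Finset.sum_const, nsmul_eq_mul]
  field_simp

lemma Qk_Qk {Ω : Finset β} {k : β → κ} (f : β → ℝ) {x : β} (hx : x ∈ Ω) :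
    Qk Ω k (Qk Ω k f) x = Qk Ω k f x := by
  have hpos := card_fcls_pos (k := k) hx
  have h1 : ∑ y ∈ fcls Ω k x, Qk Ω k f y = ∑ y ∈ fcls Ω k x, Qk Ω k f x :=
    Finset.sum_congr rfl fun y hy => Qk_congr f (mem_fcls.1 hy).2
  show (∑ y ∈ fcls Ω k x, Qk Ω k f y) / ((fcls Ω k x).card : ℝ) = Qk Ω k f x
  rw [h1, Finset.sum_const, nsmul_eq_mul]
  field_simp

/-- the class average preserves sums over unions of classes. -/
lemma sum_Qk {Ω F : Finset β} {k : β → κ} (hF : F ⊆ Ω)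
    (hcl : ∀ x ∈ F, ∀ y ∈ Ω, k y = k x → y ∈ F) (f : β → ℝ) :
    ∑ x ∈ F, Qk Ω k f x = ∑ x ∈ F, f x := by
  have h := sum_Qk_mul hF hcl f (fun _ => (1 : ℝ))
  simp only [mul_one] at h
  rw [h]
  refine Finset.sum_congr rfl fun x hx => ?_
  rw [Qk_const 1 (hF hx), mul_one]

lemma sum_mul_Qk_self {Ω F : Finset β} {k : β → κ} (hF : F ⊆ Ω)
    (hcl : ∀ x ∈ F, ∀ y ∈ Ω, k y = k x → y ∈ F) (f : β → ℝ) :
    ∑ x ∈ F, f x * Qk Ω k f x = ∑ x ∈ F, (Qk Ω k f x) ^ 2 := by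
  have e : ∑ x ∈ F, f x * Qk Ω k f x = ∑ x ∈ F, f x * Qk Ω k (Qk Ω k f) x :=
    Finset.sum_congr rfl fun x hx => by rw [Qk_Qk f (hF hx)]
  rw [e, ← sum_Qk_mul hF hcl f (Qk Ω k f)]
  refine Finset.sum_congr rfl fun x _ => ?_
  ring

/-- Three-body reduction on one union of classes `F`. -/
theorem threeBody_class {Ω F : Finset β} (k : Fin 3 → β → κ) (hF : F ⊆ Ω)
    (hcl : ∀ i, ∀ x ∈ F, ∀ y ∈ Ω, k i y = k i x → y ∈ F)
    (hL3 : ∀ g : Fin 3 → β → ℝ,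
      (∀ i, ∀ x ∈ F, ∀ y ∈ F, k i x = k i y → g i x = g i y) →
      (∀ i, ∑ x ∈ F, g i x = 0) →
      ∑ x ∈ F, (∑ i, g i x) ^ 2 ≤ 2 * ∑ x ∈ F, ∑ i, (g i x) ^ 2)
    (f : β → ℝ) :
    (∑ x ∈ F, f x * (f x - (∑ y ∈ F, f y) / (F.card : ℝ)) ≤
      ∑ x ∈ F, f x * (∑ i, (f x - Qk Ω (k i) f x))) ∧
    ∑ x ∈ F, f x * (∑ i, (f x - Qk Ω (k i) f x)) ≤
      ∑ x ∈ F, (∑ i, (f x - Qk Ω (k i) f x)) ^ 2 := by
  rcases Finset.eq_empty_or_nonempty F with hFe | hFne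
  · subst hFe; simp
  have hcard : (0 : ℝ) < (F.card : ℝ) := by exact_mod_cast Finset.card_pos.2 hFne
  set m : ℝ := (∑ x ∈ F, f x) / (F.card : ℝ) with hm
  set g : β → ℝ := fun x => f x - m with hg
  set q : Fin 3 → β → ℝ := fun i => Qk Ω (k i) g with hq
  set A : β → ℝ := fun x => ∑ i, (g x - q i x) with hA
  have hAeq : ∀ x ∈ F, (∑ i, (f x - Qk Ω (k i) f x)) = A x := by
    intro x hx
    refine Finset.sum_congr rfl fun i _ => ?_
    show f x - Qk Ω (k i) f x = (f x - m) - Qk Ω (k i) (fun y => f y - m) x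
    rw [Qk_sub_const f m (hF hx)]; ring
  have hg0 : ∑ x ∈ F, g x = 0 := by
    show ∑ x ∈ F, (f x - m) = 0
    rw [Finset.sum_sub_distrib, Finset.sum_const, nsmul_eq_mul, hm]
    field_simp
    ring
  have hq0 : ∀ i, ∑ x ∈ F, q i x = 0 := by
    intro i
    show ∑ x ∈ F, Qk Ω (k i) g x = 0
    rw [sum_Qk hF (hcl i) g, hg0]
  have hA0 : ∑ x ∈ F, A x = 0 := by
    show ∑ x ∈ F, ∑ i, (g x - q i x) = 0
    rw [Finset.sum_comm]
    refine Finset.sum_eq_zero fun i _ => ?_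
    rw [Finset.sum_sub_distrib, hg0, hq0 i, sub_zero]
  have h1 : ∑ x ∈ F, f x * (∑ i, (f x - Qk Ω (k i) f x)) = ∑ x ∈ F, g x * A x := by
    have e : ∑ x ∈ F, f x * (∑ i, (f x - Qk Ω (k i) f x)) = ∑ x ∈ F, (g x * A x + m * A x) := by
      refine Finset.sum_congr rfl fun x hx => ?_
      rw [hAeq x hx]
      show f x * A x = (f x - m) * A x + m * A x
      ring
    rw [e, Finset.sum_add_distrib, ← Finset.mul_sum, hA0, mul_zero, add_zero]
  have h2 : ∑ x ∈ F, (∑ i, (f x - Qk Ω (k i) f x)) ^ 2 = ∑ x ∈ F, (A x) ^ 2 :=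
    Finset.sum_congr rfl fun x hx => by rw [hAeq x hx]
  have h0 : ∑ x ∈ F, f x * (f x - (∑ y ∈ F, f y) / (F.card : ℝ)) = ∑ x ∈ F, (g x) ^ 2 := by
    have e : ∑ x ∈ F, f x * (f x - (∑ y ∈ F, f y) / (F.card : ℝ)) =
        ∑ x ∈ F, ((g x) ^ 2 + m * g x) := by
      refine Finset.sum_congr rfl fun x _ => ?_
      show f x * (f x - m) = (f x - m) ^ 2 + m * (f x - m)
      ring
    rw [e, Finset.sum_add_distrib, ← Finset.mul_sum, hg0, mul_zero, add_zero]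
  rw [h0, h1, h2]
  -- the numbers
  set G2 : ℝ := ∑ x ∈ F, (g x) ^ 2 with hG2
  set S : ℝ := ∑ i, ∑ x ∈ F, (q i x) ^ 2 with hS
  set N2 : ℝ := ∑ x ∈ F, (A x) ^ 2 with hN2
  set B : ℝ := ∑ x ∈ F, g x * A x with hB
  have hP : ∀ i, ∑ x ∈ F, g x * q i x = ∑ x ∈ F, (q i x) ^ 2 := fun i =>
    sum_mul_Qk_self hF (hcl i) g
  have hBeq : B = 3 * G2 - S := by
    have e : B = ∑ i : Fin 3, ∑ x ∈ F, ((g x) ^ 2 - g x * q i x) := by
      rw [Finset.sum_comm]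
      refine Finset.sum_congr rfl fun x _ => ?_
      show g x * ∑ i, (g x - q i x) = _
      rw [Finset.mul_sum]
      refine Finset.sum_congr rfl fun i _ => ?_
      ring
    rw [e]
    have e2 : ∀ i : Fin 3, ∑ x ∈ F, ((g x) ^ 2 - g x * q i x) = G2 - ∑ x ∈ F, (q i x) ^ 2 := by
      intro i
      rw [Finset.sum_sub_distrib, hP i]
    rw [Finset.sum_congr rfl fun i _ => e2 i, Finset.sum_sub_distrib, Finset.sum_const,
      Finset.card_univ, Fintype.card_fin]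
    simp only [nsmul_eq_mul]
    push_cast
    ring
  have hG2nn : 0 ≤ G2 := Finset.sum_nonneg fun x _ => sq_nonneg _
  have hSnn : 0 ≤ S := Finset.sum_nonneg fun i _ => Finset.sum_nonneg fun x _ => sq_nonneg _
  have hN2nn : 0 ≤ N2 := Finset.sum_nonneg fun x _ => sq_nonneg _
  -- (L3) applied to the class averages
  have hL := hL3 q (fun i x _ y _ h => Qk_congr g h) hq0
  have hL' : ∑ x ∈ F, (∑ i, q i x) ^ 2 ≤ 2 * S := by
    refine le_trans hL (le_of_eq ?_)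
    rw [hS, Finset.sum_comm]
  have hSeq : S = ∑ x ∈ F, g x * (∑ i, q i x) := by
    rw [hS]
    rw [Finset.sum_congr rfl fun i _ => (hP i).symm, Finset.sum_comm]
    refine Finset.sum_congr rfl fun x _ => ?_
    rw [Finset.mul_sum]
  have hCS1 : S ^ 2 ≤ G2 * ∑ x ∈ F, (∑ i, q i x) ^ 2 := by
    rw [hSeq]
    exact Finset.sum_mul_sq_le_sq_mul_sq F g (fun x => ∑ i, q i x)
  have hS2 : S ≤ 2 * G2 := by
    by_contra hcon
    rw [not_le] at hcon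
    have : S ^ 2 ≤ G2 * (2 * S) := le_trans hCS1 (mul_le_mul_of_nonneg_left hL' hG2nn)
    nlinarith
  have hCS2 : B ^ 2 ≤ G2 * N2 := by
    rw [hB]
    exact Finset.sum_mul_sq_le_sq_mul_sq F g A
  have hBG : G2 ≤ B := by rw [hBeq]; linarith
  refine ⟨hBG, ?_⟩
  by_contra hcon
  rw [not_le] at hcon
  have h3 : G2 * N2 ≤ B * N2 := mul_le_mul_of_nonneg_right hBG hN2nn
  nlinarith

/-- **Abstract three-body inequality** ((2.1)–(2.3) of the proof notes). -/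
theorem threeBody_abstract {κT : Type*} [DecidableEq κT] (Ω : Finset β) (kT : β → κT)
    (k : Fin 3 → β → κ) (hco : ∀ i x y, k i x = k i y → kT x = kT y)
    (hL3 : ∀ x₀ ∈ Ω, ∀ g : Fin 3 → β → ℝ,
      (∀ i, ∀ x ∈ fcls Ω kT x₀, ∀ y ∈ fcls Ω kT x₀, k i x = k i y → g i x = g i y) →
      (∀ i, ∑ x ∈ fcls Ω kT x₀, g i x = 0) →
      ∑ x ∈ fcls Ω kT x₀, (∑ i, g i x) ^ 2 ≤ 2 * ∑ x ∈ fcls Ω kT x₀, ∑ i, (g i x) ^ 2)
    (f : β → ℝ) :
    ∑ x ∈ Ω, f x * (∑ i, (f x - Qk Ω (k i) f x)) ≤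
      ∑ x ∈ Ω, (∑ i, (f x - Qk Ω (k i) f x)) ^ 2 := by
  classical
  have hmaps : ∀ x ∈ Ω, kT x ∈ Ω.image kT := fun x hx => Finset.mem_image_of_mem _ hx
  rw [← Finset.sum_fiberwise_of_maps_to hmaps, ← Finset.sum_fiberwise_of_maps_to hmaps]
  refine Finset.sum_le_sum fun c hc => ?_
  obtain ⟨x₀, hx₀, rfl⟩ := Finset.mem_image.1 hc
  have hFsub : fcls Ω kT x₀ ⊆ Ω := Finset.filter_subset _ _
  have hcl : ∀ i, ∀ x ∈ fcls Ω kT x₀, ∀ y ∈ Ω, k i y = k i x → y ∈ fcls Ω kT x₀ := by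
    intro i x hx y hy h
    rw [mem_fcls] at hx ⊢
    exact ⟨hy, (hco i y x h).trans hx.2⟩
  exact (threeBody_class k hFsub hcl (hL3 x₀ hx₀) f).2

/-- **Abstract three-body inequality, projection form**: `⟨f, (1 - Q_T) f⟩ ≤ ⟨f, A f⟩`. -/
theorem threeBody_proj_abstract {κT : Type*} [DecidableEq κT] (Ω : Finset β) (kT : β → κT)
    (k : Fin 3 → β → κ) (hco : ∀ i x y, k i x = k i y → kT x = kT y)
    (hL3 : ∀ x₀ ∈ Ω, ∀ g : Fin 3 → β → ℝ,
      (∀ i, ∀ x ∈ fcls Ω kT x₀, ∀ y ∈ fcls Ω kT x₀, k i x = k i y → g i x = g i y) →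
      (∀ i, ∑ x ∈ fcls Ω kT x₀, g i x = 0) →
      ∑ x ∈ fcls Ω kT x₀, (∑ i, g i x) ^ 2 ≤ 2 * ∑ x ∈ fcls Ω kT x₀, ∑ i, (g i x) ^ 2)
    (f : β → ℝ) :
    ∑ x ∈ Ω, f x * (f x - Qk Ω kT f x) ≤
      ∑ x ∈ Ω, f x * (∑ i, (f x - Qk Ω (k i) f x)) := by
  classical
  have hmaps : ∀ x ∈ Ω, kT x ∈ Ω.image kT := fun x hx => Finset.mem_image_of_mem _ hx
  rw [← Finset.sum_fiberwise_of_maps_to hmaps, ← Finset.sum_fiberwise_of_maps_to hmaps]
  refine Finset.sum_le_sum fun c hc => ?_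
  obtain ⟨x₀, hx₀, rfl⟩ := Finset.mem_image.1 hc
  have hFsub : fcls Ω kT x₀ ⊆ Ω := Finset.filter_subset _ _
  have hcl : ∀ i, ∀ x ∈ fcls Ω kT x₀, ∀ y ∈ Ω, k i y = k i x → y ∈ fcls Ω kT x₀ := by
    intro i x hx y hy h
    rw [mem_fcls] at hx ⊢
    exact ⟨hy, (hco i y x h).trans hx.2⟩
  refine le_trans (le_of_eq ?_) (threeBody_class k hFsub hcl (hL3 x₀ hx₀) f).1
  refine Finset.sum_congr rfl fun x hx => ?_
  have hx' : kT x = kT x₀ := (mem_fcls.1 hx).2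
  show f x * (f x - Qk Ω kT f x) = f x * (f x - (∑ y ∈ fcls Ω kT x₀, f y) / ((fcls Ω kT x₀).card : ℝ))
  rw [Qk_congr f hx']
  rfl

end Crest.Agent.Helper68.SW3
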